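import Vale.Agent.P181.Z.H914.Mat
import Mathlib.LinearAlgebra.Vandermonde
import Mathlib.Data.Complex.Basic

set_option autoImplicit false

/-!
The frame at a diagonal point is nondegenerate.
-/

namespace Vale.Agent.P181.Z.H914

open Matrix

variable {d : ℕ}

lemma Km_diag (γ : Fin d → ℂ) :
    Km (1 : Matrix (Fin d) (Fin d) ℂ) (fun p => Matrix.single p p (γ p)) =
      Matrix.diagonal (fun p => γ p ^ 2) ∧
    lv (1 : Matrix (Fin d) (Fin d) ℂ) (fun p => Matrix.single p p (γ p)) = γ := by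
  have hl : lv (1 : Matrix (Fin d) (Fin d) ℂ) (fun p => Matrix.single p p (γ p)) = γ := by
    funext k
    rw [lv, adjugate_one, Matrix.one_mul, trace_single_eq_same]
  refine ⟨?_, hl⟩
  have hz : zv (1 : Matrix (Fin d) (Fin d) ℂ) (fun p => Matrix.single p p (γ p)) = γ := by
    rw [zv, adjugate_one, hl, one_mulVec]
  rw [Km, adjugate_one, Matrix.one_mul, Hm, hz]
  ext i j
  rw [Matrix.sum_apply, Matrix.diagonal_apply]
  simp only [Matrix.smul_apply, Matrix.single_apply, smul_eq_mul]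
  rw [Finset.sum_eq_single i]
  · by_cases h : i = j
    · subst h
      rw [if_pos ⟨rfl, rfl⟩, if_pos rfl]
      ring
    · rw [if_neg (fun h1 => h h1.2), if_neg h, mul_zero]
  · intro k _ hk
    rw [if_neg (fun h1 => hk h1.1), mul_zero]
  · intro h
    exact absurd (Finset.mem_univ i) h

theorem det_diag (γ : Fin d → ℂ) (h0 : ∀ p, γ p ≠ 0)
    (hinj : Function.Injective (fun p => γ p ^ 2)) (htr : ∑ p, γ p ^ 2 ≠ 0) :
    (Lm (1 : Matrix (Fin d) (Fin d) ℂ) (fun p => Matrix.single p p (γ p))).det ≠ 0 := by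
  obtain ⟨hK, hl⟩ := Km_diag γ
  have h1 : Lm (1 : Matrix (Fin d) (Fin d) ℂ) (fun p => Matrix.single p p (γ p)) =
      Matrix.of fun r j : Fin d => (∑ p, γ p ^ 2) ^ (d - 1 - (r : ℕ)) *
        (Matrix.of fun r j : Fin d => γ j * (vandermonde (fun p => γ p ^ 2))ᵀ r j) r j := by
    ext r j
    simp only [Lm, hK, hl, Matrix.of_apply, Matrix.diagonal_pow, Matrix.trace_diagonal,
      Pi.smul_apply, smul_eq_mul, Matrix.vecMul_diagonal, Pi.pow_apply, Matrix.transpose_apply,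
      vandermonde_apply]
  rw [h1, det_mul_column, det_mul_row, det_transpose]
  refine mul_ne_zero (Finset.prod_ne_zero_iff.2 fun r _ => pow_ne_zero _ htr)
    (mul_ne_zero (Finset.prod_ne_zero_iff.2 fun p _ => h0 p) ?_)
  exact det_vandermonde_ne_zero_iff.2 hinj

theorem det_diag' (k : ℕ) : (Lm (1 : Matrix (Fin (k + 1)) (Fin (k + 1)) ℂ)
    (fun p => Matrix.single p p (((p : ℕ) + 1 : ℕ) : ℂ))).det ≠ 0 := by
  apply det_diag (fun p : Fin (k + 1) => (((p : ℕ) + 1 : ℕ) : ℂ))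
  · intro p
    exact Nat.cast_ne_zero.2 (Nat.succ_ne_zero (p : ℕ))
  · intro p q h
    have h1 : ((p : ℕ) + 1) ^ 2 = ((q : ℕ) + 1) ^ 2 := by
      have h2 : ((((p : ℕ) + 1) ^ 2 : ℕ) : ℂ) = ((((q : ℕ) + 1) ^ 2 : ℕ) : ℂ) := by
        rw [Nat.cast_pow, Nat.cast_pow]
        exact h
      exact_mod_cast h2
    have h3 := Nat.pow_left_injective (n := 2) (by norm_num) h1
    apply Fin.ext
    have h4 : (p : ℕ) + 1 = (q : ℕ) + 1 := h3
    omega
  · have h1 : ∑ p : Fin (k + 1), ((((p : ℕ) + 1 : ℕ) : ℂ)) ^ 2 =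
        ((∑ p : Fin (k + 1), ((p : ℕ) + 1) ^ 2 : ℕ) : ℂ) := by
      push_cast
      rfl
    rw [h1]
    have h2 : 0 < ∑ p : Fin (k + 1), ((p : ℕ) + 1) ^ 2 :=
      Finset.sum_pos (fun p _ => by positivity) Finset.univ_nonempty
    exact_mod_cast h2.ne'

end Vale.Agent.P181.Z.H914
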