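import Vale.Agent.P181.Z.H914.Grade
import Vale.Agent.P181.Z.H914.Diag

set_option autoImplicit false

/-!
Explicit covariants: `k + 1` highest weight vectors of weight `(.., c + 1, c, .., c, 0, ..)` on the
rows `1, .., k + 1` whose lowerings have nonzero determinant.
-/

namespace Vale.Agent.P181.Z.H914

open MvPolynomial Matrix Vale.Agent.P181.Z.H592 Vale.Agent.P181.H530.Torus

variable {m k a : ℕ}

/-- The exponents of the letter `e_0^a e_u e_v e_w`. -/
def vec (m a : ℕ) (u v w : Fin (m + 1)) : Fin (m + 1) → ℕ := fun r =>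
  (if r = 0 then a else 0) + (if r = u then 1 else 0) + (if r = v then 1 else 0) +
    (if r = w then 1 else 0)

/-- The letter `e_0^a e_u e_v e_w`. -/
noncomputable def x3 (m a : ℕ) (u v w : Fin (m + 1)) : A (m + 1) := X (vec m a u v w)

lemma vec_comm12 (u v w : Fin (m + 1)) : vec m a u v w = vec m a v u w := by
  funext r
  simp only [vec]
  ring

lemma vec_comm23 (u v w : Fin (m + 1)) : vec m a u v w = vec m a u w v := by
  funext r
  simp only [vec]
  ring

lemma x3_comm12 (u v w : Fin (m + 1)) : x3 m a u v w = x3 m a v u w := by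
  rw [x3, x3, vec_comm12]

lemma x3_comm23 (u v w : Fin (m + 1)) : x3 m a u v w = x3 m a u w v := by
  rw [x3, x3, vec_comm23]

lemma E_x3 {s i : Fin (m + 1)} (hi : i ≠ 0) (u v w : Fin (m + 1)) :
    E s i (x3 m a u v w) = (if u = i then x3 m a s v w else 0) +
      (if v = i then x3 m a u s w else 0) + (if w = i then x3 m a u v s else 0) := by
  have h1 : (if u = i then x3 m a s v w else 0) =
      (if u = i then (1 : ℂ) else 0) • (X (mvL s i (vec m a u v w)) : A (m + 1)) := by
    split_ifs with h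
    · subst h
      rw [one_smul, x3]
      congr 1
      funext r
      simp only [mvL_apply, vec]
      split_ifs <;> omega
    · rw [zero_smul]
  have h2 : (if v = i then x3 m a u s w else 0) =
      (if v = i then (1 : ℂ) else 0) • (X (mvL s i (vec m a u v w)) : A (m + 1)) := by
    split_ifs with h
    · subst h
      rw [one_smul, x3]
      congr 1
      funext r
      simp only [mvL_apply, vec]
      split_ifs <;> omega
    · rw [zero_smul]
  have h3 : (if w = i then x3 m a u v s else 0) =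
      (if w = i then (1 : ℂ) else 0) • (X (mvL s i (vec m a u v w)) : A (m + 1)) := by
    split_ifs with h
    · subst h
      rw [one_smul, x3]
      congr 1
      funext r
      simp only [mvL_apply, vec]
      split_ifs <;> omega
    · rw [zero_smul]
  have h4 : ((vec m a u v w i : ℕ) : ℂ) = (if u = i then (1 : ℂ) else 0) +
      (if v = i then (1 : ℂ) else 0) + (if w = i then (1 : ℂ) else 0) := by
    simp only [vec, eq_comm (a := i), if_neg (Ne.symm hi)]
    push_cast
    ring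
  rw [h1, h2, h3, x3, E_X, h4, add_smul, add_smul]

/-- The quadratic covariant. -/
noncomputable def Q3 (m a : ℕ) (j k : Fin (m + 1)) : A (m + 1) :=
  x3 m a 0 0 0 * x3 m a j k 0 - x3 m a j 0 0 * x3 m a k 0 0

/-- The cubic covariant. -/
noncomputable def C3 (m a : ℕ) (p j k : Fin (m + 1)) : A (m + 1) :=
  x3 m a 0 0 0 * (x3 m a 0 0 0 * x3 m a p j k) -
    x3 m a 0 0 0 * (x3 m a p 0 0 * x3 m a j k 0 + x3 m a j 0 0 * x3 m a p k 0 +
      x3 m a k 0 0 * x3 m a p j 0) +
    (x3 m a p 0 0 * (x3 m a j 0 0 * x3 m a k 0 0) + x3 m a p 0 0 * (x3 m a j 0 0 * x3 m a k 0 0))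

lemma E_Q3 {s i : Fin (m + 1)} (hi : i ≠ 0) (j k : Fin (m + 1)) :
    E s i (Q3 m a j k) = (if j = i then Q3 m a s k else 0) + (if k = i then Q3 m a j s else 0) := by
  simp only [Q3, map_sub, Derivation.leibniz, E_x3 hi, smul_eq_mul, if_neg (Ne.symm hi)]
  split_ifs <;> ring

lemma E_C3 {s i : Fin (m + 1)} (hi : i ≠ 0) (p j k : Fin (m + 1)) :
    E s i (C3 m a p j k) = (if p = i then C3 m a s j k else 0) +
      ((if j = i then C3 m a p s k else 0) + (if k = i then C3 m a p j s else 0)) := by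
  simp only [C3, map_sub, map_add, Derivation.leibniz, E_x3 hi, smul_eq_mul, if_neg (Ne.symm hi)]
  split_ifs <;> ring

lemma Q3_zero_left (k : Fin (m + 1)) : Q3 m a 0 k = 0 := by
  rw [Q3, x3_comm12 0 k 0]
  ring

lemma Q3_zero_right (k : Fin (m + 1)) : Q3 m a k 0 = 0 := by
  rw [Q3]
  ring

lemma C3_zero1 (j k : Fin (m + 1)) : C3 m a 0 j k = 0 := by
  rw [C3, x3_comm12 0 j k, x3_comm23 j 0 k, x3_comm12 0 k 0, x3_comm12 0 j 0]
  ring

lemma C3_zero2 (p k : Fin (m + 1)) : C3 m a p 0 k = 0 := by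
  rw [C3, x3_comm23 p 0 k, x3_comm12 0 k 0]
  ring

lemma C3_zero3 (p j : Fin (m + 1)) : C3 m a p j 0 = 0 := by
  rw [C3]
  ring

/-- The embedding of the rows. -/
def emb (hk : k + 1 ≤ m) (j : Fin (k + 1)) : Fin (m + 1) := (Fin.castLE hk j).succ

lemma emb_ne_zero (hk : k + 1 ≤ m) (j : Fin (k + 1)) : emb hk j ≠ 0 := Fin.succ_ne_zero _

lemma emb_val (hk : k + 1 ≤ m) (j : Fin (k + 1)) : (emb hk j : ℕ) = j + 1 := rfl

lemma emb_inj (hk : k + 1 ≤ m) {i j : Fin (k + 1)} : emb hk i = emb hk j ↔ i = j := by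
  constructor
  · intro h
    have h1 := congrArg Fin.val h
    rw [emb_val, emb_val] at h1
    apply Fin.ext
    omega
  · intro h
    rw [h]

/-- The matrix of the quadratic covariant. -/
noncomputable def Qm (hk : k + 1 ≤ m) (a : ℕ) : Matrix (Fin (k + 1)) (Fin (k + 1)) (A (m + 1)) :=
  Matrix.of fun i j => Q3 m a (emb hk i) (emb hk j)

/-- The matrices of the cubic covariant. -/
noncomputable def Tm (hk : k + 1 ≤ m) (a : ℕ) :
    Fin (k + 1) → Matrix (Fin (k + 1)) (Fin (k + 1)) (A (m + 1)) :=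
  fun p => Matrix.of fun i j => C3 m a (emb hk p) (emb hk i) (emb hk j)

/-- The frame. -/
noncomputable def Lf (hk : k + 1 ≤ m) (a : ℕ) : Matrix (Fin (k + 1)) (Fin (k + 1)) (A (m + 1)) :=
  Lm (Qm hk a) (Tm hk a)

lemma E_Lf (hk : k + 1 ≤ m) {s i : Fin (k + 1)} (hsi : s ≠ i) (r j : Fin (k + 1)) :
    E (emb hk s) (emb hk i) (Lf hk a r j) = if j = i then Lf hk a r s else 0 := by
  apply frame_D _ _ _ s i hsi
  · intro j k
    simp only [Qm, Matrix.of_apply, E_Q3 (emb_ne_zero hk i), emb_inj]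
  · intro p j k
    simp only [Tm, Matrix.of_apply, E_C3 (emb_ne_zero hk i), emb_inj]

lemma E_Lf_out (hk : k + 1 ≤ m) {s i : Fin (m + 1)} (hi0 : i ≠ 0) (hi : ∀ j, emb hk j ≠ i)
    (r j : Fin (k + 1)) : E s i (Lf hk a r j) = 0 := by
  apply frame_D0
  · intro j k
    simp only [Qm, Matrix.of_apply, E_Q3 hi0, if_neg (hi _), add_zero]
  · intro p j k
    simp only [Tm, Matrix.of_apply, E_C3 hi0, if_neg (hi _), add_zero]

lemma E_Lf_zero (hk : k + 1 ≤ m) {i : Fin (m + 1)} (hi0 : i ≠ 0)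
    (r j : Fin (k + 1)) : E 0 i (Lf hk a r j) = 0 := by
  apply frame_D0
  · intro j k
    simp only [Qm, Matrix.of_apply, E_Q3 hi0, Q3_zero_left, Q3_zero_right, ite_self, add_zero]
  · intro p j k
    simp only [Tm, Matrix.of_apply, E_C3 hi0, C3_zero1, C3_zero2, C3_zero3, ite_self, add_zero]

lemma Lf_raise (hk : k + 1 ≤ m) {s i : Fin (m + 1)} (hsi : s < i) (r : Fin (k + 1)) :
    E s i (Lf hk a r 0) = 0 := by
  have hi0 : i ≠ 0 := fun h => absurd (h ▸ hsi) (Fin.not_lt_zero s)
  by_cases hi : ∃ j, emb hk j = i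
  · obtain ⟨j, rfl⟩ := hi
    by_cases hs : s = 0
    · subst hs
      exact E_Lf_zero hk hi0 r 0
    · have h1 : (s : ℕ) < (j : ℕ) + 1 := hsi
      have h2 : (s : ℕ) ≠ 0 := fun h => hs (Fin.ext h)
      have h3 := j.isLt
      obtain ⟨s', rfl⟩ : ∃ s', emb hk s' = s :=
        ⟨⟨(s : ℕ) - 1, by omega⟩, by apply Fin.ext; rw [emb_val]; simp only; omega⟩
      rw [emb_val] at h1
      rw [E_Lf hk (fun h => by rw [h] at h1; omega), if_neg]
      intro h
      rw [← h] at h1
      simp only [Fin.val_zero] at h1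
      omega
  · push Not at hi
    exact E_Lf_out hk hi0 hi r 0

/-! ### Weights -/

/-- The unit weight of a row. -/
def ep (hk : k + 1 ≤ m) (j : Fin (k + 1)) : ℤ × (Fin (m + 1) → ℤ) :=
  (1, fun r => if r = emb hk j then 1 else 0)

/-- The weight of the first row. -/
def w0 (m : ℕ) (c : ℤ) : ℤ × (Fin (m + 1) → ℤ) := (0, fun r => if r = 0 then c else 0)

lemma sum_vec (u v w : Fin (m + 1)) : ∑ r, vec m a u v w r = a + 3 := by
  simp only [vec, Finset.sum_add_distrib, Finset.sum_ite_eq', Finset.mem_univ, if_true]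

lemma GA_x3 (u v w : Fin (m + 1)) : x3 m a u v w ∈ GA (m + 1) (a + 3)
    (1, fun r => (if r = 0 then (a : ℤ) else 0) + (if r = u then 1 else 0) +
      (if r = v then 1 else 0) + (if r = w then 1 else 0)) := by
  refine GA_congr (GA_X (sum_vec u v w)) ?_
  congr 1
  funext r
  simp only [vec]
  push_cast
  rfl

lemma GA_Qm (hk : k + 1 ≤ m) (i j : Fin (k + 1)) : Qm hk a i j ∈ GA (m + 1) (a + 3)
    (ep hk i + (ep hk j + w0 m (2 * (a + 2)))) := by
  simp only [Qm, Matrix.of_apply, Q3]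
  refine Submodule.sub_mem _ ?_ ?_
  · refine GA_congr (GA_mul (GA_x3 0 0 0) (GA_x3 _ _ 0)) ?_
    refine Prod.ext (by simp [ep, w0]) ?_
    funext r
    simp only [Prod.snd_add, Pi.add_apply, ep, w0]
    split_ifs <;> ring
  · refine GA_congr (GA_mul (GA_x3 _ 0 0) (GA_x3 _ 0 0)) ?_
    refine Prod.ext (by simp [ep, w0]) ?_
    funext r
    simp only [Prod.snd_add, Pi.add_apply, ep, w0]
    split_ifs <;> ring

lemma GA_Tm (hk : k + 1 ≤ m) (p i j : Fin (k + 1)) : Tm hk a p i j ∈ GA (m + 1) (a + 3)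
    (ep hk p + ep hk i + ep hk j + w0 m (3 * (a + 2))) := by
  have key : ∀ u v w x y z s t : Fin (m + 1),
      (∀ r : Fin (m + 1), ((if r = u then 1 else 0) + (if r = v then 1 else 0) +
        (if r = w then 1 else 0) + (if r = x then 1 else 0) + (if r = y then 1 else 0) +
        (if r = z then 1 else 0) + (if r = s then 1 else 0) + (if r = t then 1 else 0) +
        (if r = 0 then 1 else 0) : ℤ) =
        (if r = emb hk p then 1 else 0) + (if r = emb hk i then 1 else 0) +
        (if r = emb hk j then 1 else 0) + 6 * (if r = 0 then 1 else 0)) →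
      x3 m a u v w * (x3 m a x y z * x3 m a s t 0) ∈ GA (m + 1) (a + 3)
        (ep hk p + ep hk i + ep hk j + w0 m (3 * (a + 2))) := by
    intro u v w x y z s t h
    refine GA_congr (GA_mul (GA_x3 _ _ _) (GA_mul (GA_x3 _ _ _) (GA_x3 _ _ _))) ?_
    refine Prod.ext (by simp [ep, w0]) ?_
    funext r
    have h1 := h r
    simp only [Prod.snd_add, Pi.add_apply, ep, w0]
    have h2 : (if r = 0 then (a : ℤ) else 0) = a * (if r = 0 then 1 else 0) := by
      split_ifs <;> ring
    have h3 : (if r = 0 then (3 * ((a : ℤ) + 2)) else 0) = 3 * (a + 2) * (if r = 0 then 1 else 0) := by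
      split_ifs <;> ring
    rw [h2, h3]
    linear_combination h1
  have e : Tm hk a p i j =
      x3 m a (emb hk p) (emb hk i) (emb hk j) * (x3 m a 0 0 0 * x3 m a 0 0 0) -
      (x3 m a 0 0 0 * (x3 m a (emb hk p) 0 0 * x3 m a (emb hk i) (emb hk j) 0) +
        x3 m a 0 0 0 * (x3 m a (emb hk i) 0 0 * x3 m a (emb hk p) (emb hk j) 0) +
        x3 m a 0 0 0 * (x3 m a (emb hk j) 0 0 * x3 m a (emb hk p) (emb hk i) 0)) +
      (x3 m a (emb hk p) 0 0 * (x3 m a (emb hk i) 0 0 * x3 m a (emb hk j) 0 0) +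
        x3 m a (emb hk p) 0 0 * (x3 m a (emb hk i) 0 0 * x3 m a (emb hk j) 0 0)) := by
    simp only [Tm, Matrix.of_apply, C3]
    ring
  rw [e]
  refine Submodule.add_mem _ (Submodule.sub_mem _ ?_ (Submodule.add_mem _ (Submodule.add_mem _
    ?_ ?_) ?_)) (Submodule.add_mem _ ?_ ?_) <;>
  · apply key
    intro r
    ring

/-- The number of letters of the covariants. -/
def BC (k : ℕ) : ℕ := 6 * k ^ 2 + 8 * k + 3

/-- The weight of the covariants. -/
def nuC (m k a : ℕ) : Fin (m + 1) → ℕ := fun r =>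
  if (r : ℕ) = 0 then (a - 1) * BC k else if (r : ℕ) = 1 then 6 * k + 3 else
    if (r : ℕ) ≤ k + 1 then 6 * k + 2 else 0

lemma sum_ep (hk : k + 1 ≤ m) : ∑ i, ep hk i =
    (((k : ℤ) + 1), fun r : Fin (m + 1) => if 1 ≤ (r : ℕ) ∧ (r : ℕ) ≤ k + 1 then (1 : ℤ) else 0) := by
  refine Prod.ext ?_ ?_
  · rw [Prod.fst_sum]
    simp [ep]
  · rw [Prod.snd_sum]
    funext r
    rw [Finset.sum_apply]
    simp only [ep]
    split_ifs with h
    · have h1 : r = emb hk ⟨(r : ℕ) - 1, by omega⟩ := by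
        apply Fin.ext
        rw [emb_val]
        simp only
        omega
      rw [Finset.sum_eq_single ⟨(r : ℕ) - 1, by omega⟩]
      · rw [if_pos h1]
      · intro b _ hb
        rw [if_neg]
        intro h2
        apply hb
        rw [h1, emb_inj] at h2
        exact h2.symm
      · intro h2
        exact absurd (Finset.mem_univ _) h2
    · apply Finset.sum_eq_zero
      intro j _
      rw [if_neg]
      intro h1
      apply h
      rw [h1, emb_val]
      have := j.isLt
      omega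

lemma Lf_WA (hk : k + 1 ≤ m) (r : Fin (k + 1)) :
    Lf hk a r 0 ∈ WA (m + 1) (BC k) (a + 3) (nuC m k (a + 3)) := by
  have h := GA_frame (ep hk) (w0 m (2 * (a + 2))) (w0 m (3 * (a + 2))) (Qm hk a) (Tm hk a)
    (GA_Qm hk) (GA_Tm hk) r 0
  intro d hd
  obtain ⟨h1, h2, h3⟩ := h d hd
  rw [sum_ep] at h1 h3
  refine ⟨?_, h2, ?_⟩
  · simp only [ep, w0, Prod.fst_add, Prod.fst_sub, Prod.smul_fst] at h1
    simp only [nsmul_eq_mul, zsmul_eq_mul] at h1
    have h4 : ((k + 1 - 1 : ℕ) : ℤ) = k := by simp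
    rw [h4] at h1
    have h5 : ((Multiset.card (Finsupp.toMultiset d) : ℕ) : ℤ) = ((BC k : ℕ) : ℤ) := by
      rw [h1, BC]
      push_cast
      ring
    exact_mod_cast h5
  · funext i
    have h4 := h3 i
    have h5 : ((k + 1 - 1 : ℕ) : ℤ) = k := by simp
    simp only [ep, w0, Prod.snd_add, Prod.snd_sub, Prod.smul_snd, Pi.add_apply, Pi.sub_apply,
      Pi.smul_apply] at h4
    simp only [nsmul_eq_mul, zsmul_eq_mul] at h4
    rw [h5] at h4
    have h6 : (((Finsupp.toMultiset d).sum i : ℕ) : ℤ) = ((nuC m k (a + 3) i : ℕ) : ℤ) := by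
      rw [h4, nuC]
      have h7 : (i = emb hk 0) ↔ (i : ℕ) = 1 := by
        constructor
        · intro h; rw [h]; rfl
        · intro h; apply Fin.ext; rw [h]; rfl
      have h8 : (i = 0) ↔ (i : ℕ) = 0 := by
        constructor
        · intro h; rw [h]; rfl
        · intro h; apply Fin.ext; rw [h]; rfl
      simp only [h7, h8, BC]
      have h9 : ((a + 3 - 1 : ℕ) : ℤ) = a + 2 := by
        have : a + 3 - 1 = a + 2 := by omega
        rw [this]; push_cast; ring
      split_ifs <;> first | omega | (push_cast; ring)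
    exact_mod_cast h6

/-! ### Evaluation -/

/-- The values of the letters at the base point. -/
noncomputable def cv (m : ℕ) (v : Fin (m + 1) → ℕ) : ℂ :=
  if ∑ r : Fin m, v r.succ = 0 then 1
  else if ∑ r : Fin m, v r.succ = 2 then ∑ r : Fin m, (if v r.succ = 2 then 1 else 0)
  else if ∑ r : Fin m, v r.succ = 3 then
    ∑ r : Fin m, (if v r.succ = 3 then (((r : ℕ) + 1 : ℕ) : ℂ) else 0)
  else 0

/-- Evaluation at the base point. -/
noncomputable def ev (m : ℕ) : A (m + 1) →+* ℂ := MvPolynomial.eval (cv m)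

lemma ev_x3 (u v w : Fin (m + 1)) : ev m (x3 m a u v w) = cv m (vec m a u v w) := by
  rw [ev, x3, MvPolynomial.eval_X]

lemma ev0 : ev m (x3 m a 0 0 0) = 1 := by
  have h : ∀ r : Fin m, vec m a 0 0 0 r.succ = 0 := by
    intro r
    simp only [vec, if_neg (Fin.succ_ne_zero r), add_zero]
  rw [ev_x3, cv]
  simp only [h, Finset.sum_const_zero, if_true]

lemma ev1 (j : Fin m) : ev m (x3 m a j.succ 0 0) = 0 := by
  have h : ∀ r : Fin m, vec m a j.succ 0 0 r.succ = if r = j then 1 else 0 := by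
    intro r
    simp only [vec, if_neg (Fin.succ_ne_zero r), Fin.succ_inj, add_zero, zero_add]
  rw [ev_x3, cv]
  simp only [h, Finset.sum_ite_eq', Finset.mem_univ, if_true]
  norm_num

lemma ev2 (j k : Fin m) : ev m (x3 m a j.succ k.succ 0) = if j = k then 1 else 0 := by
  have h : ∀ r : Fin m, vec m a j.succ k.succ 0 r.succ =
      (if r = j then 1 else 0) + (if r = k then 1 else 0) := by
    intro r
    simp only [vec, if_neg (Fin.succ_ne_zero r), Fin.succ_inj, add_zero, zero_add]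
  rw [ev_x3, cv]
  simp only [h, Finset.sum_add_distrib, Finset.sum_ite_eq', Finset.mem_univ, if_true]
  rw [if_neg (by norm_num : ¬ (1 + 1 = 0))]
  split_ifs with hjk
  · subst hjk
    rw [Finset.sum_eq_single j]
    · rw [if_pos]
      rw [if_pos rfl]
    · intro r _ hr
      rw [if_neg]
      rw [if_neg hr]
      norm_num
    · intro h1
      exact absurd (Finset.mem_univ _) h1
  · apply Finset.sum_eq_zero
    intro r _
    rw [if_neg]
    by_cases h1 : r = j
    · rw [if_pos h1, if_neg (fun h2 => hjk (h1.symm.trans h2))]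
      norm_num
    · rw [if_neg h1]
      split_ifs <;> norm_num

lemma ev3 (p j k : Fin m) : ev m (x3 m a p.succ j.succ k.succ) =
    if p = j ∧ p = k then (((p : ℕ) + 1 : ℕ) : ℂ) else 0 := by
  have h : ∀ r : Fin m, vec m a p.succ j.succ k.succ r.succ =
      (if r = p then 1 else 0) + (if r = j then 1 else 0) + (if r = k then 1 else 0) := by
    intro r
    simp only [vec, if_neg (Fin.succ_ne_zero r), Fin.succ_inj, zero_add]
  rw [ev_x3, cv]
  simp only [h, Finset.sum_add_distrib, Finset.sum_ite_eq', Finset.mem_univ, if_true]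
  rw [if_neg (by norm_num : ¬ (1 + 1 + 1 = 0)), if_neg (by norm_num : ¬ (1 + 1 + 1 = 2))]
  split_ifs with hjk
  · obtain ⟨rfl, rfl⟩ := hjk
    rw [Finset.sum_eq_single p]
    · rw [if_pos]
      rw [if_pos rfl]
    · intro r _ hr
      rw [if_neg]
      rw [if_neg hr]
      norm_num
    · intro h1
      exact absurd (Finset.mem_univ _) h1
  · apply Finset.sum_eq_zero
    intro r _
    rw [if_neg]
    intro h1
    apply hjk
    by_cases h2 : r = p
    · by_cases h3 : r = j
      · by_cases h4 : r = k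
        · exact ⟨h2.symm.trans h3, h2.symm.trans h4⟩
        · rw [if_neg h4] at h1
          split_ifs at h1 <;> omega
      · rw [if_neg h3] at h1
        split_ifs at h1 <;> omega
    · rw [if_neg h2] at h1
      split_ifs at h1 <;> omega

lemma ev_Q3 (j k : Fin m) : ev m (Q3 m a j.succ k.succ) = if j = k then 1 else 0 := by
  rw [Q3, map_sub, map_mul, map_mul, ev0, ev1, ev2]
  ring

lemma ev_C3 (p j k : Fin m) : ev m (C3 m a p.succ j.succ k.succ) =
    if p = j ∧ p = k then (((p : ℕ) + 1 : ℕ) : ℂ) else 0 := by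
  rw [C3]
  simp only [map_add, map_sub, map_mul, ev0, ev1, ev3]
  ring

lemma ev_Qm (hk : k + 1 ≤ m) : (Qm hk a).map (ev m) = 1 := by
  ext i j
  rw [Matrix.map_apply, Qm, Matrix.of_apply, emb, emb, ev_Q3, Matrix.one_apply]
  simp only [Fin.castLE_inj]

lemma ev_Tm (hk : k + 1 ≤ m) : (fun p => (Tm hk a p).map (ev m)) =
    fun p : Fin (k + 1) => Matrix.single p p (((p : ℕ) + 1 : ℕ) : ℂ) := by
  funext p
  ext i j
  rw [Matrix.map_apply, Tm, Matrix.of_apply, emb, emb, emb, ev_C3, Matrix.single_apply]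
  simp only [Fin.castLE_inj, Fin.val_castLE]

theorem det_Lf (hk : k + 1 ≤ m) : (Lf hk a).det ≠ 0 := by
  intro h
  have h1 := congrArg (ev m) h
  rw [map_zero, RingHom.map_det, RingHom.mapMatrix_apply, Lf, ← Lm_map, ev_Qm, ev_Tm] at h1
  exact det_diag' k h1

/-- **COV**: explicit covariants on the rows `1, .., k + 1`. -/
theorem cov (m k a : ℕ) (hk : k + 1 ≤ m) (ha : 3 ≤ a) : ∃ l : Fin (k + 1) → A (m + 1),
    (∀ r, l r ∈ HA (m + 1) (BC k) a (nuC m k a)) ∧
    (Matrix.of fun r j : Fin (k + 1) =>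
      if j = 0 then l r else E (emb hk j) (emb hk 0) (l r)).det ≠ 0 := by
  obtain ⟨a, rfl⟩ : ∃ a', a = a' + 3 := ⟨a - 3, by omega⟩
  refine ⟨fun r => Lf hk a r 0, fun r => ?_, ?_⟩
  · exact mem_HA.2 ⟨Lf_WA hk r, fun s i hsi => Lf_raise hk hsi r⟩
  · have h1 : (Matrix.of fun r j : Fin (k + 1) =>
        if j = 0 then Lf hk a r 0 else E (emb hk j) (emb hk 0) (Lf hk a r 0)) = Lf hk a := by
      ext1 r j
      rw [Matrix.of_apply]
      split_ifs with h
      · rw [h]
      · rw [E_Lf hk h, if_pos rfl]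
    rw [h1]
    exact det_Lf hk

lemma nuC_zero : nuC m k a 0 = (a - 1) * BC k := rfl

lemma nuC_emb_zero (hk : k + 1 ≤ m) : nuC m k a (emb hk 0) = 6 * k + 3 := by
  rw [nuC]
  simp only [emb_val, Fin.val_zero]
  rfl

lemma nuC_emb (hk : k + 1 ≤ m) {j : Fin (k + 1)} (hj : j ≠ 0) :
    nuC m k a (emb hk j) = 6 * k + 2 := by
  have h1 : (j : ℕ) ≠ 0 := fun h => hj (Fin.ext h)
  have h2 := j.isLt
  rw [nuC, emb_val, if_neg (by omega), if_neg (by omega), if_pos (by omega)]

lemma nuC_out {r : Fin (m + 1)} (hr : k + 1 < (r : ℕ)) : nuC m k a r = 0 := by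
  rw [nuC, if_neg (by omega), if_neg (by omega), if_neg (by omega)]

end Vale.Agent.P181.Z.H914
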