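import Vale.Agent.P181.Z.H914.Mat
import Mathlib.Algebra.DualNumber
import Mathlib.RingTheory.Derivation.Basic
import Mathlib.LinearAlgebra.Matrix.Transvection
import Mathlib.Data.Complex.Basic
import Mathlib.Tactic.LinearCombination
import Mathlib.Tactic.Ring

set_option autoImplicit false

/-!
Derivations of the frame.
-/

namespace Vale.Agent.P181.Z.H914

open Matrix

section

/-- The constants of the dual numbers. -/
def io (R : Type*) [CommRing R] : R →+* DualNumber R := TrivSqZeroExt.inlHom R R

lemma io_snd {R : Type*} [CommRing R] (x : R) : TrivSqZeroExt.snd (io R x) = 0 := rfl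

lemma io_fst {R : Type*} [CommRing R] (x : R) : TrivSqZeroExt.fst (io R x) = x := rfl

lemma snd_eps_mul {R : Type*} [CommRing R] (x : R) : TrivSqZeroExt.snd (DualNumber.eps * io R x) = x := by
  rw [TrivSqZeroExt.snd_mul, io_snd, io_fst]
  simp

variable {R : Type*} [CommRing R] [Algebra ℂ R]

/-- The ring homomorphism `f ↦ f + ε D f`. -/
def dn (D : Derivation ℂ R R) : R →+* DualNumber R where
  toFun f := io R f + DualNumber.eps * io R (D f)
  map_zero' := by simp
  map_one' := by simp
  map_add' := by
    intro x y
    rw [map_add, map_add, map_add]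
    ring
  map_mul' := by
    intro x y
    rw [Derivation.leibniz, map_mul, map_add, smul_eq_mul, smul_eq_mul, map_mul, map_mul]
    have h : (DualNumber.eps : DualNumber R) * DualNumber.eps = 0 := DualNumber.eps_mul_eps
    linear_combination (-(io R (D x)) * io R (D y)) * h

lemma dn_apply (D : Derivation ℂ R R) (x : R) :
    dn D x = io R x + DualNumber.eps * io R (D x) := rfl

lemma snd_dn (D : Derivation ℂ R R) (x : R) : TrivSqZeroExt.snd (dn D x) = D x := by
  rw [dn_apply, TrivSqZeroExt.snd_add, io_snd, snd_eps_mul, zero_add]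

variable {d : ℕ} (Q : Matrix (Fin d) (Fin d) R) (T : Fin d → Matrix (Fin d) (Fin d) R)

theorem frame_D0 (D : Derivation ℂ R R) (hQ : ∀ j k, D (Q j k) = 0)
    (hT : ∀ p j k, D (T p j k) = 0) (r j : Fin d) : D (Lm Q T r j) = 0 := by
  have h1 : Q.map (dn D) = Q.map (io R) := by
    ext1 j k
    rw [Matrix.map_apply, Matrix.map_apply, dn_apply, hQ, map_zero, mul_zero, add_zero]
  have h2 : (fun p => (T p).map (dn D)) = fun p => (T p).map (io R) := by
    funext p
    ext1 j k
    rw [Matrix.map_apply, Matrix.map_apply, dn_apply, hT, map_zero, mul_zero, add_zero]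
  have h3 := Lm_map (dn D) Q T
  rw [h1, h2, Lm_map] at h3
  have h4 := congrFun (congrFun h3 r) j
  rw [Matrix.map_apply, Matrix.map_apply] at h4
  have h5 := congrArg TrivSqZeroExt.snd h4
  rw [snd_dn, io_snd] at h5
  exact h5.symm

/-- Conjugation by a transvection over the dual numbers. -/
lemma conj_eps {S : Type*} [CommRing S] (e : S) (he : e * e = 0) (s i : Fin d)
    (Q : Matrix (Fin d) (Fin d) S) (j k : Fin d) :
    ((transvection s i e)ᵀ * Q * transvection s i e) j k =
      Q j k + e * ((if j = i then Q s k else 0) + (if k = i then Q j s else 0)) := by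
  rw [transvection, transpose_add, transpose_one, Matrix.add_mul, Matrix.one_mul, Matrix.mul_add,
    Matrix.mul_one, Matrix.add_apply, Matrix.add_apply, Matrix.transpose_single]
  have h1 : ∀ (P : Matrix (Fin d) (Fin d) S) (j k : Fin d), (P * Matrix.single s i e) j k =
      if k = i then P j s * e else 0 := by
    intro P j k
    split_ifs with h
    · subst h
      rw [Matrix.mul_single_apply_same]
    · rw [Matrix.mul_single_apply_of_ne _ _ _ _ _ h]
  have h2 : ∀ (P : Matrix (Fin d) (Fin d) S) (j k : Fin d), (Matrix.single i s e * P) j k =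
      if j = i then e * P s k else 0 := by
    intro P j k
    split_ifs with h
    · subst h
      rw [Matrix.single_mul_apply_same]
    · rw [Matrix.single_mul_apply_of_ne _ _ _ _ _ h]
  rw [h1, Matrix.add_apply, h2, h2]
  by_cases hk : k = i
  · by_cases hj : j = i
    · rw [if_pos hk, if_pos hj, if_pos hj, if_pos hj, if_pos hk]
      linear_combination (Q s s) * he
    · rw [if_pos hk, if_neg hj, if_neg hj, if_neg hj, if_pos hk]
      ring
  · by_cases hj : j = i
    · rw [if_neg hk, if_pos hj, if_pos hj, if_neg hk]
      ring
    · rw [if_neg hk, if_neg hj, if_neg hj, if_neg hk]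
      ring

theorem frame_D (D : Derivation ℂ R R) (s i : Fin d) (hsi : s ≠ i)
    (hQ : ∀ j k, D (Q j k) = (if j = i then Q s k else 0) + (if k = i then Q j s else 0))
    (hT : ∀ p j k, D (T p j k) = (if p = i then T s j k else 0) +
      ((if j = i then T p s k else 0) + (if k = i then T p j s else 0))) (r j : Fin d) :
    D (Lm Q T r j) = if j = i then Lm Q T r s else 0 := by
  have he : (DualNumber.eps : DualNumber R) * DualNumber.eps = 0 := DualNumber.eps_mul_eps
  have hio : ∀ (c : Prop) [Decidable c] (x : R), io R (if c then x else 0) =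
      if c then io R x else 0 := by
    intro c _ x
    split_ifs
    · rfl
    · exact map_zero _
  have h1 : Q.map (dn D) = Qa (Q.map (io R)) (transvection s i DualNumber.eps) 1 := by
    ext1 j k
    rw [Qa, one_smul, conj_eps _ he, Matrix.map_apply, dn_apply, hQ, map_add, hio, hio]
    rfl
  have h2 : (fun p => (T p).map (dn D)) =
      Ta (fun p => (T p).map (io R)) (transvection s i DualNumber.eps) 1 := by
    funext p
    ext1 j k
    rw [Ta, one_smul, Matrix.sum_apply]
    simp only [Matrix.smul_apply, conj_eps _ he, smul_eq_mul]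
    rw [Matrix.map_apply, dn_apply, hT, map_add, map_add, hio, hio, hio]
    have h3 : ∀ q : Fin d, transvection s i (DualNumber.eps : DualNumber R) q p =
        (if q = p then 1 else 0) + (if q = s then (if p = i then DualNumber.eps else 0) else 0) := by
      intro q
      rw [transvection, Matrix.add_apply, Matrix.one_apply, Matrix.single_apply]
      congr 1
      by_cases h4 : q = s
      · by_cases h5 : p = i
        · rw [if_pos ⟨h4.symm, h5.symm⟩, if_pos h4, if_pos h5]
        · rw [if_neg (fun h => h5 h.2.symm), if_pos h4, if_neg h5]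
      · rw [if_neg (fun h => h4 h.1.symm), if_neg h4]
    simp only [h3, add_mul, ite_mul, one_mul, zero_mul, Finset.sum_add_distrib,
      Finset.sum_ite_eq', Finset.mem_univ, if_true, Matrix.map_apply]
    by_cases hp : p = i
    · rw [if_pos hp, if_pos hp]
      linear_combination (-((if j = i then io R (T s s k) else 0) +
        (if k = i then io R (T s j s) else 0))) * he
    · simp only [if_neg hp]
      ring
  have h3 := Lm_map (dn D) Q T
  rw [h1, h2, Lm_act, Lm_map, det_transvection_of_ne s i hsi] at h3
  have h4 := congrFun (congrFun h3 r) j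
  simp only [one_pow, mul_one, one_smul] at h4
  rw [transvection, Matrix.mul_add, Matrix.mul_one, Matrix.add_apply, Matrix.map_apply,
    Matrix.map_apply] at h4
  have h5 := congrArg TrivSqZeroExt.snd h4
  rw [snd_dn, TrivSqZeroExt.snd_add, io_snd, zero_add] at h5
  rw [← h5]
  split_ifs with h
  · subst h
    rw [Matrix.mul_single_apply_same, Matrix.map_apply, mul_comm, snd_eps_mul]
  · rw [Matrix.mul_single_apply_of_ne _ _ _ _ _ h]
    rfl

end

end Vale.Agent.P181.Z.H914
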