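import Vale.Agent.P181.Z.H592.Real
import Vale.Agent.P181.Z.H914.Dn

set_option autoImplicit false

/-!
Weights of the frame (integer valued weights in the ring of letters).
-/

namespace Vale.Agent.P181.Z.H914

open MvPolynomial Matrix Vale.Agent.P181.Z.H592 Vale.Agent.P181.H530.Torus

variable {n : ℕ}

/-- The graded pieces, with integer weights: number of letters and weight. -/
def GA (n a : ℕ) (κ : ℤ × (Fin n → ℤ)) : Submodule ℂ (A n) where
  carrier := {f | ∀ d : (Fin n → ℕ) →₀ ℕ, coeff d f ≠ 0 →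
    ((Multiset.card (Finsupp.toMultiset d) : ℕ) : ℤ) = κ.1 ∧
    (∀ v ∈ Finsupp.toMultiset d, ∑ i, v i = a) ∧
    ∀ i, (((Finsupp.toMultiset d).sum i : ℕ) : ℤ) = κ.2 i}
  zero_mem' := fun d hd => absurd (coeff_zero d) hd
  add_mem' := by
    intro f g hf hg d hd
    rw [coeff_add] at hd
    by_cases h : coeff d f = 0
    · rw [h, zero_add] at hd
      exact hg d hd
    · exact hf d h
  smul_mem' := by
    intro c f hf d hd
    rw [coeff_smul, smul_eq_mul] at hd
    exact hf d (right_ne_zero_of_mul hd)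

variable {a : ℕ}

lemma GA_congr {κ κ' : ℤ × (Fin n → ℤ)} {f : A n} (h : f ∈ GA n a κ) (hk : κ = κ') :
    f ∈ GA n a κ' := hk ▸ h

lemma GA_mul {κ κ' : ℤ × (Fin n → ℤ)} {f g : A n} (hf : f ∈ GA n a κ) (hg : g ∈ GA n a κ') :
    f * g ∈ GA n a (κ + κ') := by
  classical
  intro d hd
  rw [coeff_mul] at hd
  obtain ⟨x, hx, hx0⟩ := Finset.exists_ne_zero_of_sum_ne_zero hd
  have h1 := Finset.HasAntidiagonal.mem_antidiagonal.1 hx
  obtain ⟨h2, h3, h4⟩ := hf x.1 (left_ne_zero_of_mul hx0)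
  obtain ⟨h5, h6, h7⟩ := hg x.2 (right_ne_zero_of_mul hx0)
  rw [← h1, map_add]
  refine ⟨by rw [Multiset.card_add, Nat.cast_add, h2, h5]; rfl, fun v hv => ?_, fun i => ?_⟩
  · rcases Multiset.mem_add.1 hv with h | h
    · exact h3 v h
    · exact h6 v h
  · rw [Multiset.sum_add, Pi.add_apply, Nat.cast_add, h4, h7]
    rfl

lemma GA_one : (1 : A n) ∈ GA n a 0 := by
  intro d hd
  rw [coeff_one] at hd
  have h : 0 = d := by
    by_contra h
    rw [if_neg h] at hd
    exact hd rfl
  rw [← h, map_zero]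
  exact ⟨rfl, fun v hv => absurd hv (Multiset.notMem_zero v), fun i => rfl⟩

lemma GA_X {v : Fin n → ℕ} (hv : ∑ i, v i = a) :
    (X v : A n) ∈ GA n a (1, fun i => (v i : ℤ)) := by
  classical
  intro d hd
  rw [coeff_X] at hd
  have h : Finsupp.single v 1 = d := by
    by_contra h
    rw [if_neg h] at hd
    exact hd rfl
  rw [← h, Finsupp.toMultiset_single, one_smul]
  refine ⟨by simp, fun w hw => ?_, fun i => by simp⟩
  rw [Multiset.mem_singleton.1 hw]
  exact hv

lemma GA_prod {ι : Type*} (s : Finset ι) {κ : ι → ℤ × (Fin n → ℤ)} {f : ι → A n}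
    (h : ∀ i ∈ s, f i ∈ GA n a (κ i)) : ∏ i ∈ s, f i ∈ GA n a (∑ i ∈ s, κ i) := by
  classical
  induction s using Finset.induction_on with
  | empty => simpa using GA_one
  | insert i s hi ih =>
    rw [Finset.prod_insert hi, Finset.sum_insert hi]
    exact GA_mul (h i (Finset.mem_insert_self i s))
      (ih (fun j hj => h j (Finset.mem_insert_of_mem hj)))

lemma GA_pow {κ : ℤ × (Fin n → ℤ)} {f : A n} (h : f ∈ GA n a κ) (r : ℕ) :
    f ^ r ∈ GA n a (r • κ) := by
  induction r with
  | zero =>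
    rw [pow_zero, zero_smul]
    exact GA_one
  | succ r ih =>
    rw [pow_succ, succ_nsmul]
    exact GA_mul ih h

lemma GA_det {d : ℕ} (u w : Fin d → ℤ × (Fin n → ℤ)) (P : Matrix (Fin d) (Fin d) (A n))
    (h : ∀ i j, P i j ∈ GA n a (u i + w j)) : P.det ∈ GA n a (∑ i, u i + ∑ j, w j) := by
  rw [Matrix.det_apply]
  refine Submodule.sum_mem _ fun σ _ => ?_
  have h1 : ∏ i, P (σ i) i ∈ GA n a (∑ i, u i + ∑ j, w j) := by
    refine GA_congr (GA_prod Finset.univ (fun i _ => h (σ i) i)) ?_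
    rw [Finset.sum_add_distrib, Equiv.sum_comp σ u]
  rcases Int.units_eq_one_or (Equiv.Perm.sign σ) with h2 | h2
  · rw [h2, one_smul]
    exact h1
  · rw [h2, Units.neg_smul, one_smul]
    exact Submodule.neg_mem _ h1

lemma GA_adj {d : ℕ} (u w : Fin d → ℤ × (Fin n → ℤ)) (P : Matrix (Fin d) (Fin d) (A n))
    (h : ∀ i j, P i j ∈ GA n a (u i + w j)) (i j : Fin d) :
    P.adjugate i j ∈ GA n a (∑ i, u i + ∑ j, w j - u j - w i) := by
  rw [Matrix.adjugate_apply]
  refine GA_congr (GA_det (Function.update u j (-w i)) w _ ?_) ?_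
  · intro r c
    by_cases hr : r = j
    · subst hr
      rw [Matrix.updateRow_self, Function.update_self]
      by_cases hc : c = i
      · subst hc
        rw [Pi.single_eq_same]
        exact GA_congr GA_one (by abel)
      · rw [Pi.single_eq_of_ne hc]
        exact Submodule.zero_mem _
    · rw [Matrix.updateRow_ne hr, Function.update_of_ne hr]
      exact h r c
  · rw [Finset.sum_update_of_mem (Finset.mem_univ j), ← Finset.erase_eq,
      ← Finset.sum_erase_add Finset.univ u (Finset.mem_univ j)]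
    abel

/-- The weights of the frame. -/
theorem GA_frame {d : ℕ} (ep : Fin d → ℤ × (Fin n → ℤ)) (q c : ℤ × (Fin n → ℤ))
    (Q : Matrix (Fin d) (Fin d) (A n)) (T : Fin d → Matrix (Fin d) (Fin d) (A n))
    (hQ : ∀ j k, Q j k ∈ GA n a (ep j + (ep k + q)))
    (hT : ∀ p j k, T p j k ∈ GA n a (ep p + ep j + ep k + c)) (r j : Fin d) :
    Lm Q T r j ∈ GA n a (ep j + ((2 • ∑ i, ep i + (d : ℤ) • q - q + c) +
      (d - 1 : ℕ) • (3 • (2 • ∑ i, ep i + (d : ℤ) • q - q) + 2 • c))) := by
  set δ := 2 • ∑ i, ep i + (d : ℤ) • q - q with hδ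
  have hadj : ∀ i j, Q.adjugate i j ∈ GA n a (δ - ep i - ep j) := by
    intro i j
    refine GA_congr (GA_adj ep (fun k => ep k + q) Q hQ i j) ?_
    rw [hδ, Finset.sum_add_distrib, Finset.sum_const, Finset.card_univ, Fintype.card_fin]
    rw [two_smul, natCast_zsmul]
    abel
  have hl : ∀ k, lv Q T k ∈ GA n a (ep k + (δ + c)) := by
    intro k
    rw [lv, trace]
    refine Submodule.sum_mem _ fun i _ => ?_
    rw [Matrix.diag_apply, Matrix.mul_apply]
    refine Submodule.sum_mem _ fun j _ => ?_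
    exact GA_congr (GA_mul (hadj i j) (hT k j i)) (by abel)
  have hz : ∀ i, zv Q T i ∈ GA n a ((δ + δ + c) - ep i) := by
    intro i
    rw [zv, mulVec, dotProduct]
    refine Submodule.sum_mem _ fun j _ => ?_
    exact GA_congr (GA_mul (hadj i j) (hl j)) (by abel)
  have hH : ∀ i j, Hm Q T i j ∈ GA n a (ep i + ep j + (δ + δ + c + c)) := by
    intro i j
    rw [Hm, Matrix.sum_apply]
    refine Submodule.sum_mem _ fun k _ => ?_
    rw [Matrix.smul_apply, smul_eq_mul]
    exact GA_congr (GA_mul (hz k) (hT k i j)) (by abel)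
  set κ := 3 • δ + 2 • c with hκ
  have hK : ∀ i j, Km Q T i j ∈ GA n a (ep j - ep i + κ) := by
    intro i j
    rw [Km, Matrix.mul_apply]
    refine Submodule.sum_mem _ fun p _ => ?_
    refine GA_congr (GA_mul (hadj i p) (hH p j)) ?_
    rw [hκ, two_smul, show (3 : ℕ) = 2 + 1 from rfl, add_smul, two_smul, one_smul]
    abel
  have htr : (Km Q T).trace ∈ GA n a κ := by
    rw [trace]
    refine Submodule.sum_mem _ fun i _ => ?_
    rw [Matrix.diag_apply]
    exact GA_congr (hK i i) (by abel)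
  have hKp : ∀ (r : ℕ) (i j), (Km Q T ^ r) i j ∈ GA n a (ep j - ep i + r • κ) := by
    intro r
    induction r with
    | zero =>
      intro i j
      rw [pow_zero, Matrix.one_apply]
      split_ifs with h
      · subst h
        exact GA_congr GA_one (by rw [zero_smul]; abel)
      · exact Submodule.zero_mem _
    | succ r ih =>
      intro i j
      rw [pow_succ, Matrix.mul_apply]
      refine Submodule.sum_mem _ fun p _ => ?_
      refine GA_congr (GA_mul (ih i p) (hK p j)) ?_
      rw [add_smul, one_smul]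
      abel
  have h1 : Lm Q T r j = (Km Q T).trace ^ (d - 1 - (r : ℕ)) *
      ∑ p, lv Q T p * (Km Q T ^ (r : ℕ)) p j := by
    simp only [Lm, Matrix.of_apply, Pi.smul_apply, smul_eq_mul, vecMul, dotProduct]
  rw [h1]
  have h2 : ∑ p, lv Q T p * (Km Q T ^ (r : ℕ)) p j ∈ GA n a (ep j + (δ + c) + (r : ℕ) • κ) := by
    refine Submodule.sum_mem _ fun p _ => ?_
    exact GA_congr (GA_mul (hl p) (hKp r p j)) (by abel)
  refine GA_congr (GA_mul (GA_pow htr _) h2) ?_
  have h3 : (d - 1 : ℕ) • κ = (d - 1 - (r : ℕ)) • κ + (r : ℕ) • κ := by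
    rw [← add_smul]
    congr 1
    have := r.isLt
    omega
  rw [h3]
  abel

end Vale.Agent.P181.Z.H914
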