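import Mathlib.LinearAlgebra.Matrix.Adjugate
import Mathlib.LinearAlgebra.Matrix.NonsingularInverse
import Mathlib.LinearAlgebra.Matrix.Trace

set_option autoImplicit false

/-!
Matrix algebra of the covariant frame of a pair (quadratic form, cubic form).
-/

namespace Vale.Agent.P181.Z.H914

open Matrix

variable {d : ℕ} {R : Type*} [CommRing R]

/-- The covector `<C, adj Q>`. -/
def lv (Q : Matrix (Fin d) (Fin d) R) (T : Fin d → Matrix (Fin d) (Fin d) R) :
    Fin d → R := fun k => (Q.adjugate * T k).trace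

/-- The vector `adj Q l`. -/
def zv (Q : Matrix (Fin d) (Fin d) R) (T : Fin d → Matrix (Fin d) (Fin d) R) :
    Fin d → R := Q.adjugate *ᵥ lv Q T

/-- The form `C(z, ., .)`. -/
def Hm (Q : Matrix (Fin d) (Fin d) R) (T : Fin d → Matrix (Fin d) (Fin d) R) :
    Matrix (Fin d) (Fin d) R := ∑ k, zv Q T k • T k

/-- The endomorphism `adj Q H`. -/
def Km (Q : Matrix (Fin d) (Fin d) R) (T : Fin d → Matrix (Fin d) (Fin d) R) :
    Matrix (Fin d) (Fin d) R := Q.adjugate * Hm Q T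

/-- The frame: the rows are `(tr K)^(d-1-r) l K^r`. -/
def Lm (Q : Matrix (Fin d) (Fin d) R) (T : Fin d → Matrix (Fin d) (Fin d) R) :
    Matrix (Fin d) (Fin d) R :=
  Matrix.of fun r => (Km Q T).trace ^ (d - 1 - (r : ℕ)) • (lv Q T ᵥ* Km Q T ^ (r : ℕ))

section Act

variable (Q : Matrix (Fin d) (Fin d) R) (T : Fin d → Matrix (Fin d) (Fin d) R)
  (g : Matrix (Fin d) (Fin d) R) (s u : R)

/-- The transformed quadratic form. -/
def Qa : Matrix (Fin d) (Fin d) R := s • (gᵀ * Q * g)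

/-- The transformed cubic form. -/
def Ta : Fin d → Matrix (Fin d) (Fin d) R :=
  fun k => u • ∑ p, g p k • (gᵀ * T p * g)

lemma adj_Qa : (Qa Q g s).adjugate =
    s ^ (d - 1) • (g.adjugate * Q.adjugate * gᵀ.adjugate) := by
  rw [Qa, adjugate_smul, Fintype.card_fin, adjugate_mul_distrib, adjugate_mul_distrib,
    Matrix.mul_assoc]

lemma lv_act : lv (Qa Q g s) (Ta T g u) = (s ^ (d - 1) * u * g.det ^ 2) • (lv Q T ᵥ* g) := by
  funext k
  have h1 : ∀ p, (g.adjugate * Q.adjugate * gᵀ.adjugate * (gᵀ * T p * g)).trace =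
      g.det ^ 2 * (Q.adjugate * T p).trace := by
    intro p
    have e1 : g.adjugate * Q.adjugate * gᵀ.adjugate * (gᵀ * T p * g) =
        g.adjugate * (Q.adjugate * (gᵀ.adjugate * gᵀ) * T p * g) := by
      simp only [Matrix.mul_assoc]
    rw [e1, adjugate_mul, det_transpose, Matrix.mul_smul, Matrix.mul_one, Matrix.smul_mul,
      Matrix.smul_mul, Matrix.mul_smul, trace_smul, Matrix.trace_mul_comm, Matrix.mul_assoc,
      mul_adjugate, Matrix.mul_smul, Matrix.mul_one, trace_smul, smul_eq_mul, smul_eq_mul]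
    ring
  rw [lv, adj_Qa, Ta, Matrix.smul_mul, Matrix.mul_smul, trace_smul, trace_smul, Matrix.mul_sum,
    trace_sum]
  simp only [Matrix.mul_smul, trace_smul, h1, smul_eq_mul, Pi.smul_apply, vecMul, dotProduct, lv]
  rw [Finset.mul_sum, Finset.mul_sum, Finset.mul_sum]
  apply Finset.sum_congr rfl
  intro p _
  ring

lemma zv_act : zv (Qa Q g s) (Ta T g u) =
    (s ^ (d - 1) * s ^ (d - 1) * u * g.det ^ 3) • (g.adjugate *ᵥ zv Q T) := by
  rw [zv, lv_act, adj_Qa, smul_mulVec, mulVec_smul, ← mulVec_transpose, mulVec_mulVec, smul_smul]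
  have e1 : g.adjugate * Q.adjugate * gᵀ.adjugate * gᵀ =
      g.adjugate * Q.adjugate * (gᵀ.adjugate * gᵀ) := by
    simp only [Matrix.mul_assoc]
  rw [e1, adjugate_mul, det_transpose, Matrix.mul_smul, Matrix.mul_one, smul_mulVec, smul_smul,
    zv, mulVec_mulVec]
  congr 1
  ring

lemma Hm_act : Hm (Qa Q g s) (Ta T g u) =
    (s ^ (d - 1) * s ^ (d - 1) * u ^ 2 * g.det ^ 4) • (gᵀ * Hm Q T * g) := by
  have h0 : ∀ p, ∑ k, (g.adjugate *ᵥ zv Q T) k * g p k = g.det * zv Q T p := by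
    intro p
    have h1 : (g *ᵥ (g.adjugate *ᵥ zv Q T)) p = g.det * zv Q T p := by
      rw [mulVec_mulVec, mul_adjugate, smul_mulVec, one_mulVec, Pi.smul_apply, smul_eq_mul]
    rw [← h1, mulVec, dotProduct]
    apply Finset.sum_congr rfl
    intro k _
    rw [mul_comm]
  rw [Hm, zv_act]
  simp only [Ta, Pi.smul_apply, smul_eq_mul, Finset.smul_sum, smul_smul]
  rw [Finset.sum_comm]
  rw [Hm, Matrix.mul_sum, Matrix.sum_mul, Finset.smul_sum]
  apply Finset.sum_congr rfl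
  intro p _
  rw [← Finset.sum_smul, Matrix.mul_smul, Matrix.smul_mul, smul_smul]
  congr 1
  rw [show s ^ (d - 1) * s ^ (d - 1) * u ^ 2 * g.det ^ 4 * zv Q T p =
    (s ^ (d - 1) * s ^ (d - 1) * u * g.det ^ 3) * u * (g.det * zv Q T p) by ring, ← h0 p,
    Finset.mul_sum]
  apply Finset.sum_congr rfl
  intro k _
  ring

lemma Km_act : Km (Qa Q g s) (Ta T g u) =
    (s ^ (3 * (d - 1)) * u ^ 2 * g.det ^ 5) • (g.adjugate * Km Q T * g) := by
  rw [Km, Hm_act, adj_Qa, Matrix.smul_mul, Matrix.mul_smul, smul_smul]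
  have e1 : g.adjugate * Q.adjugate * gᵀ.adjugate * (gᵀ * Hm Q T * g) =
      g.adjugate * (Q.adjugate * (gᵀ.adjugate * gᵀ) * Hm Q T) * g := by
    simp only [Matrix.mul_assoc]
  rw [e1, adjugate_mul, det_transpose, Matrix.mul_smul, Matrix.mul_one, Matrix.smul_mul,
    Matrix.mul_smul, Matrix.smul_mul, smul_smul, Km]
  congr 1
  rw [show 3 * (d - 1) = (d - 1) + (d - 1) + (d - 1) by ring, pow_add, pow_add]
  ring

lemma trace_act : (Km (Qa Q g s) (Ta T g u)).trace =
    s ^ (3 * (d - 1)) * u ^ 2 * g.det ^ 6 * (Km Q T).trace := by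
  rw [Km_act, trace_smul, Matrix.mul_assoc, Matrix.trace_mul_comm, Matrix.mul_assoc, mul_adjugate,
    Matrix.mul_smul, Matrix.mul_one, trace_smul, smul_eq_mul, smul_eq_mul]
  ring

lemma mul_conj_pow (K : Matrix (Fin d) (Fin d) R) (r : ℕ) :
    g * (g.adjugate * K * g) ^ r = g.det ^ r • (K ^ r * g) := by
  induction r with
  | zero => simp
  | succ r ih =>
    rw [pow_succ, ← Matrix.mul_assoc, ih, Matrix.smul_mul]
    have e1 : K ^ r * g * (g.adjugate * K * g) = K ^ r * (g * g.adjugate) * K * g := by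
      simp only [Matrix.mul_assoc]
    rw [e1, mul_adjugate, Matrix.mul_smul, Matrix.mul_one, Matrix.smul_mul, Matrix.smul_mul,
      smul_smul, pow_succ K, pow_succ]

/-- The frame transforms by right multiplication with `g`, up to a character. -/
theorem Lm_act : Lm (Qa Q g s) (Ta T g u) =
    (s ^ (d - 1) * u * g.det ^ 2 * (s ^ (3 * (d - 1)) * u ^ 2 * g.det ^ 6) ^ (d - 1)) •
      (Lm Q T * g) := by
  ext r k
  have h1 : (Lm (Qa Q g s) (Ta T g u)) r =
      (s ^ (3 * (d - 1)) * u ^ 2 * g.det ^ 6 * (Km Q T).trace) ^ (d - 1 - (r : ℕ)) •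
        (((s ^ (d - 1) * u * g.det ^ 2) • (lv Q T ᵥ* g)) ᵥ*
        ((s ^ (3 * (d - 1)) * u ^ 2 * g.det ^ 5) • (g.adjugate * Km Q T * g)) ^ (r : ℕ)) := by
    rw [← trace_act Q T g s u, ← lv_act, ← Km_act]
    rfl
  have h2 : ((s ^ (d - 1) * u * g.det ^ 2) • (lv Q T ᵥ* g)) ᵥ*
        ((s ^ (3 * (d - 1)) * u ^ 2 * g.det ^ 5) • (g.adjugate * Km Q T * g)) ^ (r : ℕ) =
      (s ^ (d - 1) * u * g.det ^ 2 * (s ^ (3 * (d - 1)) * u ^ 2 * g.det ^ 6) ^ (r : ℕ)) •
        ((lv Q T ᵥ* Km Q T ^ (r : ℕ)) ᵥ* g) := by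
    rw [_root_.smul_pow, smul_vecMul, vecMul_smul, vecMul_vecMul, mul_conj_pow, vecMul_smul,
      smul_smul, smul_smul, vecMul_vecMul]
    congr 1
    rw [mul_pow, mul_pow, mul_pow, mul_pow]
    rw [show (g.det ^ 6) ^ (r : ℕ) = (g.det ^ 5) ^ (r : ℕ) * g.det ^ (r : ℕ) by
      rw [← mul_pow, ← pow_succ]]
    ring
  rw [h1, h2]
  rw [Matrix.smul_apply, smul_eq_mul, Pi.smul_apply, Pi.smul_apply, smul_eq_mul, smul_eq_mul]
  have h3 : (Lm Q T * g) r k = (Km Q T).trace ^ (d - 1 - (r : ℕ)) *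
      (((lv Q T ᵥ* Km Q T ^ (r : ℕ)) ᵥ* g) k) := by
    rw [Matrix.mul_apply, vecMul, dotProduct, Finset.mul_sum]
    apply Finset.sum_congr rfl
    intro p _
    simp only [Lm, Matrix.of_apply, Pi.smul_apply, smul_eq_mul]
    ring
  rw [h3]
  have h4 : (s ^ (3 * (d - 1)) * u ^ 2 * g.det ^ 6) ^ (d - 1) =
      (s ^ (3 * (d - 1)) * u ^ 2 * g.det ^ 6) ^ (d - 1 - (r : ℕ)) *
      (s ^ (3 * (d - 1)) * u ^ 2 * g.det ^ 6) ^ (r : ℕ) := by
    rw [← pow_add]
    congr 1
    have := r.isLt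
    omega
  rw [h4, mul_pow _ (Km Q T).trace]
  ring

end Act

section Map

variable {S : Type*} [CommRing S] (f : R →+* S) (Q : Matrix (Fin d) (Fin d) R)
  (T : Fin d → Matrix (Fin d) (Fin d) R)

lemma lv_map (k : Fin d) : lv (Q.map f) (fun p => (T p).map f) k = f (lv Q T k) := by
  have h1 : (Q.map f).adjugate = Q.adjugate.map f := (RingHom.map_adjugate f Q).symm
  rw [lv, lv, h1, ← Matrix.map_mul, trace, trace, map_sum]
  rfl

lemma zv_map (k : Fin d) : zv (Q.map f) (fun p => (T p).map f) k = f (zv Q T k) := by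
  have h1 : (Q.map f).adjugate = Q.adjugate.map f := (RingHom.map_adjugate f Q).symm
  simp only [zv, h1, mulVec, dotProduct, map_sum, map_mul, lv_map, Matrix.map_apply]

lemma Hm_map : Hm (Q.map f) (fun p => (T p).map f) = (Hm Q T).map f := by
  ext i j
  simp only [Hm, Matrix.sum_apply, Matrix.smul_apply, smul_eq_mul, Matrix.map_apply, map_sum,
    map_mul, zv_map]

lemma Km_map : Km (Q.map f) (fun p => (T p).map f) = (Km Q T).map f := by
  have h1 : (Q.map f).adjugate = Q.adjugate.map f := (RingHom.map_adjugate f Q).symm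
  rw [Km, Km, h1, Hm_map, Matrix.map_mul]

theorem Lm_map : Lm (Q.map f) (fun p => (T p).map f) = (Lm Q T).map f := by
  ext r k
  have h2 : ((Km Q T).map f).trace = f (Km Q T).trace := by
    rw [trace, trace, map_sum]
    rfl
  have h3 : ((Km Q T).map f) ^ (r : ℕ) = (Km Q T ^ (r : ℕ)).map f := by
    have := (map_pow (RingHom.mapMatrix f) (Km Q T) (r : ℕ)).symm
    exact this
  simp only [Lm, Matrix.of_apply, Km_map, h2, h3, Pi.smul_apply, smul_eq_mul, vecMul, dotProduct,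
    lv_map, Matrix.map_apply, map_mul, map_pow, map_sum]

end Map

end Vale.Agent.P181.Z.H914
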