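import Vale.Agent.P181.Z.H914.Cov
import Vale.Agent.P181.Z.H503.PieH
import Vale.Agent.P181.H530.KHI
import Vale.Agent.P181.Z.H582.Wall

set_option autoImplicit false

/-!
# P181, [Z]: the Pieri step in the kernel of the Foulkes-Howe map, unconditional.
-/

namespace Vale.Agent.P181.Z.H914

open MvPolynomial Matrix Vale.Agent.P181 Vale.Agent.P181.H280 Vale.Agent.P181.Z.H592
  Vale.Agent.P181.Z463

/-- The covariants in the form of `CovStmt`. -/
theorem covStmt (m k a : ℕ) (hk : k + 1 ≤ m) (ha : 3 ≤ a) :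
    H503S.CovStmt (m + 1) a (k + 1) (BC k) (6 * k + 2) := by
  obtain ⟨l, hl, hdet⟩ := cov m k a hk ha
  have hm : k + 1 < m + 1 := by omega
  refine ⟨hm, nuC m k a, l, hl, fun h => ?_, fun j h2 hj => ?_, fun j hj => ?_, ?_⟩
  · rw [nuC]
    simp
  · rw [nuC, if_neg (by omega), if_neg (by omega), if_pos hj]
  · exact nuC_out hj
  · have h1 : (Matrix.of fun r j : Fin (k + 1) => H592.cov hm (l r) j) =
        Matrix.of fun r j : Fin (k + 1) => if j = 0 then l r else E (emb hk j) (emb hk 0) (l r) := by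
      ext1 r j
      rw [Matrix.of_apply, Matrix.of_apply, H592.cov]
      by_cases hj : j = 0
      · rw [if_pos hj, hj]
        rfl
      · have hj0 : ¬ ((j : ℕ) = 0) := fun h => hj (Fin.ext h)
        rw [if_neg hj, if_neg hj0]
        rfl
    rw [h1]
    exact hdet

/-- **The Pieri step for the kernels**, unconditional. -/
theorem pieH (n a : ℕ) (ha : 3 ≤ a) :
    H582.PieH n a BC (fun j => 6 * j + 2) ∧ ∀ j, (j + 1) * (6 * j + 2) + 1 ≤ a * BC j := by
  constructor
  · intro j hj hj' k b θ hanti hk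
    exact (H503S.pie_of hj hj' (covStmt (n + 2) j a (by omega) ha) (H530.KHI.IS (n + 3) a)
      (fun s i f hf => H530.KHI.E_mem_IK s i hf)
      (fun f hf g => Ideal.mul_mem_right g (H530.KHI.IK (n + 3) a) hf)
      (fun N θ => H530.KHI.finrank_KH_eq N a (n + 3) θ) k b θ hanti hk).2
  · intro j
    have h1 : (j + 1) * (6 * j + 2) + 1 = BC j := by
      rw [BC]
      ring
    rw [h1]
    exact Nat.le_mul_of_pos_left _ (by omega)

end Vale.Agent.P181.Z.H914
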